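import Vale.Agent.P022.H916.Ram
import Vale.Agent.P022.H853.L3.Cyc
import Vale.Agent.P022.H811.L3.Zeta

/-!
# P022-L3, [INERT]: the inertia groups in the cyclotomic fields

Let `m = p ^ k * m'` with `p` prime, `p ∤ m'`, and `P` a prime of `𝓞 ℚ̄` above `p`. For every unit
`u` modulo `m` with `u ≡ 1` modulo `m'` some element of the inertia group of `P` acts on the `m`-th
roots of unity as the `u`-th power.
-/

open NumberField
open scoped Pointwise

noncomputable section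

namespace Vale.Agent.P022.H297.L3

open Vale.Agent.P022 Vale.Agent.P022.H916

lemma int_mem_iff {p : ℕ} (hp : p.Prime) {P : Ideal (𝓞 Qb)} (hP : P.IsPrime)
    (hpP : (p : 𝓞 Qb) ∈ P) (n : ℤ) : ((n : ℤ) : 𝓞 Qb) ∈ P ↔ (p : ℤ) ∣ n := by
  constructor
  · intro h
    by_contra hn
    have h1 : IsCoprime (p : ℤ) n :=
      (Prime.coprime_iff_not_dvd (Nat.prime_iff_prime_int.1 hp)).2 hn
    obtain ⟨a, b, hab⟩ := h1
    apply hP.ne_top
    rw [Ideal.eq_top_iff_one]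
    have h2 : (1 : 𝓞 Qb) = (a : 𝓞 Qb) * (p : 𝓞 Qb) + (b : 𝓞 Qb) * (n : 𝓞 Qb) := by
      exact_mod_cast congrArg (Int.cast : ℤ → 𝓞 Qb) hab.symm
    rw [h2]
    exact P.add_mem (P.mul_mem_left _ hpP) (P.mul_mem_left _ h)
  · rintro ⟨c, rfl⟩
    push_cast
    exact P.mul_mem_right _ hpP

/-- a root of unity of `p`-power order is congruent to `1` -/
lemma root_sub_one {p k : ℕ} (hp : p.Prime) {P : Ideal (𝓞 Qb)} (hP : P.IsPrime)
    (hpP : (p : 𝓞 Qb) ∈ P) {z : 𝓞 Qb} (hz : z ^ p ^ k = 1) : z - 1 ∈ P := by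
  have : Fact p.Prime := ⟨hp⟩
  have hd : IsDomain (𝓞 Qb ⧸ P) := Ideal.Quotient.isDomain P
  have hc : CharP (𝓞 Qb ⧸ P) p := by
    have h0 : (p : 𝓞 Qb ⧸ P) = 0 := by
      rw [← map_natCast (Ideal.Quotient.mk P)]
      exact Ideal.Quotient.eq_zero_iff_mem.2 hpP
    exact (CharP.charP_iff_prime_eq_zero hp).2 h0
  rw [← Ideal.Quotient.eq_zero_iff_mem]
  have h1 : (Ideal.Quotient.mk P (z - 1)) ^ p ^ k = 0 := by
    rw [map_sub, map_one, sub_pow_char_pow, ← map_pow, hz, map_one, one_pow, sub_self]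
  exact eq_zero_of_pow_eq_zero h1

/-- total ramification: an integer of the field of the `p ^ k`-th roots of unity is congruent to a
rational integer modulo all the primes above `p` -/
lemma cong_int {p k : ℕ} (hp : p.Prime) {K : Type} [Field K] [NumberField K]
    [IsCyclotomicExtension {p ^ k} ℚ K] {ζ : K} (hζ : IsPrimitiveRoot ζ (p ^ k)) (j : K →+* Qb)
    (x : 𝓞 K) : ∃ n : ℤ, ∀ P : Ideal (𝓞 Qb), P.IsPrime → (p : 𝓞 Qb) ∈ P →
      RingOfIntegers.mapRingHom j x - (n : 𝓞 Qb) ∈ P := by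
  have : Fact p.Prime := ⟨hp⟩
  have hcl := IsCyclotomicExtension.Rat.isIntegralClosure_adjoin_singleton_of_prime_pow hζ
  obtain ⟨⟨y, hy⟩, hyx⟩ := hcl.isIntegral_iff.1 x.2
  have hyx' : y = (x : K) := hyx
  rw [Algebra.adjoin_singleton_eq_range_aeval] at hy
  obtain ⟨f, hf⟩ := hy
  have hf' : Polynomial.aeval ζ f = (x : K) := by rw [← hyx']; exact hf
  have hint : IsIntegral ℤ (j ζ) :=
    (hζ.isIntegral (pow_pos hp.pos k)).map (j.toIntAlgHom)
  let z : 𝓞 Qb := ⟨j ζ, hint⟩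
  have hz : z ^ p ^ k = 1 := by
    apply RingOfIntegers.ext
    show (j ζ) ^ p ^ k = 1
    rw [← map_pow, hζ.pow_eq_one, map_one]
  have hx : RingOfIntegers.mapRingHom j x = Polynomial.aeval z f := by
    apply RingOfIntegers.ext
    have h1 : ((Polynomial.aeval z f : 𝓞 Qb) : Qb) = Polynomial.aeval (z : Qb) f := by
      have := Polynomial.aeval_algebraMap_apply Qb z f
      exact this.symm
    have h2 : ((RingOfIntegers.mapRingHom j x : 𝓞 Qb) : Qb) = j (x : K) := rfl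
    rw [h1, h2, ← hf']
    have h3 : Polynomial.aeval (j.toIntAlgHom ζ) f = j.toIntAlgHom (Polynomial.aeval ζ f) :=
      Polynomial.aeval_algHom_apply _ _ _
    exact h3.symm
  refine ⟨f.eval 1, fun P hP hpP => ?_⟩
  have h1 := root_sub_one hp hP hpP hz
  rw [← Ideal.Quotient.eq] at h1 ⊢
  rw [hx, map_intCast]
  have h3 : Ideal.Quotient.mk P (Polynomial.aeval z f) =
      Polynomial.aeval (Ideal.Quotient.mk P z) f := by
    have := Polynomial.aeval_algHom_apply (Ideal.Quotient.mk P).toIntAlgHom z f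
    exact this.symm
  rw [h3, h1, map_one]
  have h4 := Polynomial.aeval_algebraMap_apply (𝓞 Qb ⧸ P) (1 : ℤ) f
  rw [map_one] at h4
  rw [h4]
  rw [Polynomial.coe_aeval_eq_eval, eq_intCast]

/-- every automorphism of the `p ^ k`-th roots of unity is induced by an element of the inertia
group -/
theorem inert_pow {p k : ℕ} (hp : p.Prime) {P : Ideal (𝓞 Qb)} (hP : P.IsPrime)
    (hpP : (p : 𝓞 Qb) ∈ P) {a : ℕ} (ha : a.Coprime (p ^ k)) :
    ∃ g : GQ, (∀ x : 𝓞 Qb, g • x - x ∈ P) ∧ ∀ ζ : Qb, ζ ^ p ^ k = 1 → g ζ = ζ ^ a := by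
  have : NeZero (p ^ k) := ⟨pow_ne_zero k hp.ne_zero⟩
  let K := CyclotomicField (p ^ k) ℚ
  have hcyc : IsCyclotomicExtension {p ^ k} ℚ K :=
    CyclotomicField.isCyclotomicExtension (p ^ k) ℚ
  have : NumberField K := IsCyclotomicExtension.numberField {p ^ k} ℚ K
  let ζ : K := IsCyclotomicExtension.zeta (p ^ k) ℚ K
  have hζ : IsPrimitiveRoot ζ (p ^ k) := IsCyclotomicExtension.zeta_spec (p ^ k) ℚ K
  let j : K →+* Qb := (IsAlgClosed.lift : K →ₐ[ℚ] Qb).toRingHom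
  have hz : IsPrimitiveRoot (j ζ) (p ^ k) := hζ.map_of_injective j.injective
  have hza : IsPrimitiveRoot (j ζ ^ a) (p ^ k) := hz.pow_of_coprime _ ha
  obtain ⟨g₀, hg₀⟩ : ∃ g₀ : GQ, g₀ (j ζ) = j ζ ^ a := by
    apply (isConjRoot_iff_exists_algEquiv (K := ℚ) (x := j ζ ^ a) (y := j ζ)).1
    show minpoly ℚ (j ζ ^ a) = minpoly ℚ (j ζ)
    rw [← Polynomial.cyclotomic_eq_minpoly_rat hz (pow_pos hp.pos k),
      ← Polynomial.cyclotomic_eq_minpoly_rat hza (pow_pos hp.pos k)]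
  have hpP' : (p : 𝓞 Qb) ∈ g₀ • P := by
    rw [Ideal.mem_pointwise_smul_iff_inv_smul_mem]
    have : g₀⁻¹ • (p : 𝓞 Qb) = p := by
      apply RingOfIntegers.ext
      show g₀⁻¹ ((p : 𝓞 Qb) : Qb) = ((p : 𝓞 Qb) : Qb)
      simp
    rw [this]
    exact hpP
  have hsP : (g₀ • P).IsPrime := inferInstance
  have hb : below j (g₀ • P) = below j P := by
    ext x
    show RingOfIntegers.mapRingHom j x ∈ g₀ • P ↔ RingOfIntegers.mapRingHom j x ∈ P
    obtain ⟨n, hn⟩ := cong_int hp hζ j x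
    have h1 := hn _ hsP hpP'
    have h2 := hn _ hP hpP
    have e1 : RingOfIntegers.mapRingHom j x ∈ g₀ • P ↔ (n : 𝓞 Qb) ∈ g₀ • P := by
      constructor
      · intro h
        have := (g₀ • P).sub_mem h h1
        simpa using this
      · intro h
        have := (g₀ • P).add_mem h1 h
        simpa using this
    have e2 : RingOfIntegers.mapRingHom j x ∈ P ↔ (n : 𝓞 Qb) ∈ P := by
      constructor
      · intro h
        have := P.sub_mem h h2
        simpa using this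
      · intro h
        have := P.add_mem h2 h
        simpa using this
    rw [e1, e2, int_mem_iff hp hsP hpP', int_mem_iff hp hP hpP]
  obtain ⟨τ, hτ⟩ := exists_smul j hsP hP hb
  have hst : ((τ : GQ) * g₀) • P = P := by rw [mul_smul]; exact hτ.symm
  have hcong : ∀ x : 𝓞 K, ((τ : GQ) * g₀) • RingOfIntegers.mapRingHom j x -
      RingOfIntegers.mapRingHom j x ∈ P := by
    intro x
    obtain ⟨n, hn⟩ := cong_int hp hζ j x
    have h2 := hn _ hP hpP
    have h3 : ((τ : GQ) * g₀) • (RingOfIntegers.mapRingHom j x - (n : 𝓞 Qb)) ∈ P := by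
      have := Ideal.smul_mem_pointwise_smul ((τ : GQ) * g₀) _ P h2
      rwa [hst] at this
    have h4 : ((τ : GQ) * g₀) • (n : 𝓞 Qb) = n := by
      apply RingOfIntegers.ext
      show ((τ : GQ) * g₀) ((n : 𝓞 Qb) : Qb) = ((n : 𝓞 Qb) : Qb)
      simp
    rw [smul_sub, h4] at h3
    have := P.sub_mem h3 h2
    simpa using this
  obtain ⟨g, hg⟩ := exists_lift j hP hst hcong
  have hfix : ∀ h : GK j, (h : GQ) (j ζ) = j ζ := fun h => h.2 ζ
  have hginv : (g : GQ)⁻¹ (j ζ) = j ζ := (GK j).inv_mem g.2 ζ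
  refine ⟨(g : GQ)⁻¹ * ((τ : GQ) * g₀), fun x => ?_, fun μ hμ => ?_⟩
  · have hiff : ∀ y : 𝓞 Qb, (g : GQ) • y ∈ P → y ∈ P := by
      intro y hy
      have h3 : ((τ : GQ) * g₀) • y ∈ P := by
        have := P.sub_mem hy (hg y)
        simpa using this
      rw [← hst, Ideal.smul_mem_pointwise_smul_iff] at h3
      exact h3
    apply hiff
    rw [smul_sub, smul_smul, mul_inv_cancel_left]
    have := P.neg_mem (hg x)
    simpa using this
  · obtain ⟨i, -, rfl⟩ := hz.eq_pow_of_pow_eq_one hμ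
    show (g : GQ)⁻¹ ((τ : GQ) (g₀ (j ζ ^ i))) = (j ζ ^ i) ^ a
    rw [map_pow, hg₀, map_pow, map_pow, map_pow, hfix τ, map_pow, hginv, ← pow_mul, ← pow_mul,
      mul_comm]

/-- **[INERT]** in the letters of `IsTwist` -/
theorem inert {m p k m' : ℕ} (hm : 0 < m) (hp : p.Prime) (hmk : m = p ^ k * m')
    (hpm : p.Coprime m') {P : Ideal (𝓞 Qb)} (hP : P.IsPrime) (hpP : (p : 𝓞 Qb) ∈ P)
    (u : (ZMod m)ˣ) (hu : (u : ZMod m).val ≡ 1 [MOD m']) :
    ∃ g : GQ, (∀ x : 𝓞 Qb, g • x - x ∈ P) ∧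
      ∀ ζ : Qb, ζ ^ m = 1 → g ζ = ζ ^ (u : ZMod m).val := by
  have hm' : 0 < m' := Nat.pos_of_ne_zero (by rintro rfl; simp [hmk] at hm)
  have hc : (u : ZMod m).val.Coprime (p ^ k) :=
    (ZMod.val_coe_unit_coprime u).coprime_dvd_right (Dvd.intro _ hmk.symm)
  obtain ⟨g, hg, hgz⟩ := inert_pow (k := k) hp hP hpP hc
  refine ⟨g, hg, fun ζ hζ => ?_⟩
  have hcop : (p ^ k).Coprime m' := Nat.Coprime.pow_left k hpm
  -- Bezout: `ζ` is the product of a `p ^ k`-th and a `m'`-th root of unity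
  obtain ⟨e, he1, he2⟩ := Nat.chineseRemainder hcop 1 0
  have hd1 : m' ∣ e := (Nat.modEq_zero_iff_dvd).1 he2
  have hζ1 : (ζ ^ e) ^ p ^ k = 1 := by
    obtain ⟨c, rfl⟩ := hd1
    rw [← pow_mul, show m' * c * p ^ k = m * c by rw [hmk]; ring, pow_mul, hζ, one_pow]
  obtain ⟨c, hcm⟩ : ∃ c, e + p ^ k * c = 1 + m * (e + 1) := by
    have h1 : e ≤ 1 + m * (e + 1) := by
      nlinarith
    have h2 : (1 + m * (e + 1)) ≡ e [MOD p ^ k] := by
      have h3 : 1 + m * (e + 1) ≡ 1 + 0 [MOD p ^ k] :=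
        Nat.ModEq.add_left 1 ((Nat.modEq_zero_iff_dvd).2 ⟨m' * (e + 1), by rw [hmk]; ring⟩)
      exact h3.trans he1.symm
    obtain ⟨c, hc⟩ := (Nat.modEq_iff_dvd' h1).1 h2.symm
    exact ⟨c, by omega⟩
  have hζ2 : (ζ ^ (p ^ k * c)) ^ m' = 1 := by
    rw [← pow_mul, show p ^ k * c * m' = m * c by rw [hmk]; ring, pow_mul, hζ, one_pow]
  have hprod : ζ ^ e * ζ ^ (p ^ k * c) = ζ := by
    rw [← pow_add, hcm, pow_add, pow_one, pow_mul, hζ, one_pow, mul_one]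
  have hg2 : g (ζ ^ (p ^ k * c)) = ζ ^ (p ^ k * c) :=
    H811.L3.inert_zeta hm' hp hpm P hP hpP hg _ hζ2
  have hu2 : (ζ ^ (p ^ k * c)) ^ (u : ZMod m).val = ζ ^ (p ^ k * c) := by
    have h1 : 1 ≤ (u : ZMod m).val ∨ (u : ZMod m).val = 0 := by omega
    rcases h1 with h1 | h1
    · obtain ⟨b, hb⟩ := (Nat.modEq_iff_dvd' h1).1 hu.symm
      rw [show (u : ZMod m).val = 1 + m' * b by omega, pow_add, pow_one]
      have h3 : (ζ ^ (p ^ k * c)) ^ (m' * b) = 1 := by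
        rw [pow_mul (ζ ^ (p ^ k * c)), hζ2, one_pow]
      rw [h3, mul_one]
    · rw [h1] at hu ⊢
      have h2 : m' = 1 := by
        have := (Nat.modEq_iff_dvd' (Nat.zero_le 1)).1 hu
        exact Nat.dvd_one.1 this
      rw [h2, pow_one] at hζ2
      rw [hζ2, one_pow]
  calc g ζ = g (ζ ^ e * ζ ^ (p ^ k * c)) := by rw [hprod]
    _ = (ζ ^ e) ^ (u : ZMod m).val * (ζ ^ (p ^ k * c)) ^ (u : ZMod m).val := by
      rw [map_mul, hgz _ hζ1, hg2, hu2]
    _ = ζ ^ (u : ZMod m).val := by rw [← mul_pow, hprod]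

/-- **[INERT]** in the letters of `cyc` -/
theorem inert_cyc {m p k m' : ℕ} [NeZero m] (hp : p.Prime) (hmk : m = p ^ k * m')
    (hpm : p.Coprime m') {P : Ideal (𝓞 Qb)} (hP : P.IsPrime) (hpP : (p : 𝓞 Qb) ∈ P)
    (u : (ZMod m)ˣ) (hu : (u : ZMod m).val ≡ 1 [MOD m']) :
    ∃ g : GQ, (∀ x : 𝓞 Qb, g • x - x ∈ P) ∧ H853.cyc m g = u := by
  obtain ⟨g, hg, hgz⟩ := inert (Nat.pos_of_ne_zero (NeZero.ne m)) hp hmk hpm hP hpP u hu
  refine ⟨g, hg, ?_⟩
  have h1 := hgz _ (H853.zt_prim m).pow_eq_one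
  rw [H853.cyc_spec g (H853.zt_prim m).pow_eq_one] at h1
  rcases eq_or_ne m 1 with hm | hm
  · subst hm
    exact Subsingleton.elim _ _
  · have hm1 : 1 < m := by
      have := NeZero.ne m
      omega
    have : Fact (1 < m) := ⟨hm1⟩
    have h5 := (H853.zt_prim m).pow_inj (ZMod.val_lt _) (ZMod.val_lt _) h1
    apply Units.ext
    exact ZMod.val_injective m h5

/-- every prime `p` has a prime `P` of `𝓞 ℚ̄` above it, and for all of them the inertia group is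
large -/
theorem inert_exists {m p k m' : ℕ} [NeZero m] (hp : p.Prime) (hmk : m = p ^ k * m')
    (hpm : p.Coprime m') (u : (ZMod m)ˣ) (hu : (u : ZMod m).val ≡ 1 [MOD m']) :
    ∃ P : Ideal (𝓞 Qb), P.IsPrime ∧ (p : 𝓞 Qb) ∈ P ∧
      ∃ g : GQ, (∀ x : 𝓞 Qb, g • x - x ∈ P) ∧ H853.cyc m g = u := by
  obtain ⟨P, hP, hpP⟩ := exists_prime hp
  exact ⟨P, hP, hpP, inert_cyc hp hmk hpm hP hpP u hu⟩

end Vale.Agent.P022.H297.L3
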