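import Vale.Agent.P022.H297.L3.Inert

/-!
# P022-L3, [INERT]: the form for [COND]
-/

open NumberField
open scoped Pointwise

noncomputable section

namespace Vale.Agent.P022.H297.L3

open Vale.Agent.P022 Vale.Agent.P022.H916

/-- [INERT], for every prime of `𝓞 ℚ̄` above `p` -/
theorem inert_all (m p : ℕ) (hm : 0 < m) (hp : p.Prime) (u : (ZMod m)ˣ)
    (hu : ∀ m₁, m₁ ∣ m → p.Coprime m₁ → ((u : ZMod m).cast : ZMod m₁) = 1)
    {P : Ideal (𝓞 Qb)} (hP : P.IsPrime) (hpP : (p : 𝓞 Qb) ∈ P) :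
    ∃ g : GQ, (∀ x : 𝓞 Qb, g • x - x ∈ P) ∧
      ∀ ζ : Qb, ζ ^ m = 1 → g ζ = ζ ^ (u : ZMod m).val := by
  have hne : NeZero m := ⟨hm.ne'⟩
  have hmk : m = p ^ m.factorization p * (m / p ^ m.factorization p) :=
    (Nat.ordProj_mul_ordCompl_eq_self m p).symm
  have hcop : p.Coprime (m / p ^ m.factorization p) := Nat.coprime_ordCompl hp hm.ne'
  have h1 := hu _ (Nat.ordCompl_dvd m p) hcop
  refine inert hm hp hmk hcop hP hpP u ?_
  rw [← ZMod.natCast_val, ← Nat.cast_one (R := ZMod (m / p ^ m.factorization p))] at h1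
  exact (ZMod.natCast_eq_natCast_iff _ _ _).1 h1

/-- [INERT], literally as used in [COND] -/
theorem inert_cond : ∀ (m p : ℕ), 0 < m → p.Prime → p ∣ m → ∀ u : (ZMod m)ˣ,
    (∀ m₁, m₁ ∣ m → p.Coprime m₁ → ((u : ZMod m).cast : ZMod m₁) = 1) →
      ∃ P : Ideal (𝓞 Qb), P.IsPrime ∧ (p : 𝓞 Qb) ∈ P ∧ ∃ g : GQ, (∀ x : 𝓞 Qb, g • x - x ∈ P) ∧
        ∀ ζ : Qb, ζ ^ m = 1 → g ζ = ζ ^ (u : ZMod m).val := by
  intro m p hm hp _ u hu
  obtain ⟨P, hP, hpP⟩ := exists_prime hp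
  exact ⟨P, hP, hpP, inert_all m p hm hp u hu hP hpP⟩

end Vale.Agent.P022.H297.L3
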